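import Mathlib
import Vale.Agent.Results.P227.A_boxsection
import Vale.Agent.Results.P227.C_seriesparallel
import Vale.Agent.Results.P227.D_samefan

namespace Vale.Agent.Results.P227.AAA_union

open MeasureTheory Vale.Agent.Lib.P227

/-- The union for the polytopes of series-parallel networks and of sections of boxes: the logarithm
of the volume is concave in the logarithms of the heights, and the literal logarithmic
Brunn-Minkowski inequality for the Wulff body holds for pairs with the same active constraints. -/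
theorem result :
    (∀ {n : ℕ} {a₀ a₁ : Fin n → ℝ} {b₀ b₁ : ℝ} (_ : ∀ i, 0 < a₀ i)
      (_ : ∀ i, 0 < a₁ i) (_ : 0 < b₀) (_ : 0 < b₁) {lam : ℝ} (_ : 0 ≤ lam) (_ : lam ≤ 1),
      (volume {x : Fin n → ℝ | (∀ i, |x i| ≤ a₀ i) ∧ |∑ i, x i| ≤ b₀}).toReal ^ (1 - lam)
          * (volume {x : Fin n → ℝ | (∀ i, |x i| ≤ a₁ i) ∧ |∑ i, x i| ≤ b₁}).toReal ^ lam
        ≤ (volume {x : Fin n → ℝ | (∀ i, |x i| ≤ a₀ i ^ (1 - lam) * a₁ i ^ lam)
            ∧ |∑ i, x i| ≤ b₀ ^ (1 - lam) * b₁ ^ lam}).toReal) ∧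
    (∀ (Z : Net) (h h' : Z.Edge → ℝ) (_ : ∀ e, 0 < h e) (_ : ∀ e, 0 < h' e)
      (lam : ℝ) (_ : 0 ≤ lam) (_ : lam ≤ 1),
      0 < (volume (Z.body h)).toReal ∧
        (volume (Z.body h)).toReal ^ (1 - lam) * (volume (Z.body h')).toReal ^ lam
          ≤ (volume (Z.body (fun e => h e ^ (1 - lam) * h' e ^ lam))).toReal) ∧
    (∀ (Z : Net) (h h' : Z.Edge → ℝ) (_ : ∀ e, 0 < h e) (_ : ∀ e, 0 < h' e)
      (_ : Z.SameActive h h') (lam : ℝ) (_ : 0 ≤ lam) (_ : lam ≤ 1),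
      volume (Z.body h) ^ (1 - lam) * volume (Z.body h') ^ lam
        ≤ volume (Z.logComb (Z.body h) (Z.body h') lam)) :=
  ⟨fun ha₀ ha₁ hb₀ hb₁ _ h0 h1 =>
      Vale.Agent.Results.P227.A_boxsection.result ha₀ ha₁ hb₀ hb₁ h0 h1,
    fun Z h h' hh hh' lam h0 h1 =>
      Vale.Agent.Results.P227.C_seriesparallel.result Z h h' hh hh' lam h0 h1,
    fun Z h h' hh hh' hs lam h0 h1 =>
      Vale.Agent.Results.P227.D_samefan.result Z h h' hh hh' hs lam h0 h1⟩

end Vale.Agent.Results.P227.AAA_union
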